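import Crest.Agent.X212.Cmp73.Asm
import Crest.Agent.X212.M.Jqt
import Crest.Agent.X212.Pat85.Wl
import Crest.Agent.X212.Shi84.Jl0
import Crest.Agent.X212.Shi84.Jl
import Crest.Agent.X212.Sm25.Lev
import Crest.Agent.X212.Sw.Core
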