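import Crest.Agent.X212.Sw.Wld
import Crest.Agent.X212.Map77.S4_Mg
import Crest.Agent.X212.Frc61.Frc
import Crest.Agent.X212.Frd39.CylB_Mg
import Crest.Agent.X212.Sw21.Cc
import Crest.Agent.X212.Gl50.Mt_Mg
import Crest.Agent.X212.Cyl58.PsC
import Crest.Agent.X212.Add68.Main_Mg
import Crest.Agent.X212.Sep15.Brk
import Crest.Agent.X212.Sep15.Eqv
import Crest.Agent.X212.Win45.Main
import Crest.Agent.X212.Dl42.Main
import Crest.Agent.X212.Lw78.Hi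
import Crest.Agent.X212.Wd45.Main_Mg
import Crest.Agent.X212.Dr9.Main
import Crest.Agent.X212.Dns43.Main
import Crest.Agent.X212.Unq6.Main_Mg
import Crest.Agent.X212.Wal9.Main
import Crest.Agent.X212.Sm10.Dg5

/-!
# Row 212, layer AN-S (helper91): the leaves put together
-/

set_option autoImplicit false
set_option linter.unusedSectionVars false
noncomputable section

namespace Crest.Agent.X212.Sw.Asm
open M (Mf)
open Map77.S (MdStmt)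

variable {κ lam ν : Type} [Fintype κ] [Fintype lam] [Fintype ν] [DecidableEq ν]

theorem dl : DlStmt κ lam ν := Dl42.dl
theorem psy : PsyStmt κ lam ν := Cyl58.psyStmt
theorem locw : LocwStmt κ lam ν := Lw78.locw dl
theorem win : WinStmt κ lam ν := Win45.winStmt dl psy locw
theorem mono : MonoStmt κ lam ν := Sep15.S.mono win dl
theorem drift : DriftStmt κ lam ν := Dr9.drift psy
theorem cut : CutStmt κ lam ν := Cut71.cut mono

section
variable {d : Dt κ lam ν} {N : Type} [Fintype N] {ty : N → d.𝓔} {X : Mf 4} {nc nr : ℕ} {T : Type}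
  [NormedAddCommGroup T] [NormedSpace ℝ T] [FiniteDimensional ℝ T]

theorem pt : PtStmt d ty X nc nr T := Pb50.ptStmt _ _ _ _ _ _
theorem map : MapStmt d ty X nc nr T := Map44.mapStmt _ _ _ _ _ _
theorem md : MdStmt d ty X nc nr T := Map77.S.md _ _ _ _ _ _ map
theorem rep : RepStmt d ty X nc nr T := Pb50.repStmt _ _ _ _ _ _ map
theorem ax : AxStmt d ty X nc nr T :=
  Ax1.axStmt _ _ _ _ _ _ md (Grs81.grpP _ _ _ _ _ _) Cyl58.Bt.bootS
theorem fac : FacStmt d ty X nc nr T := Sw21.fac (fun _ _ _ _ => pt) rep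
theorem dens : DensStmt d ty X nc T := Dns43.densStmt _ _ _ _ _ rep
theorem fred : FredStmt d ty X nc nr T := Frc61.fred md (Sw21.fr0 Frd39.cylB fun _ => md)

end

section
variable {d : Dt κ lam ν} [Fintype d.𝓔] {Sl : Type} [Fintype Sl] {X X₁ X₂ : Mf 4}
  {nc nr n₁ r₁ n₂ r₂ : ℕ} {T T₁ T₂ : Type} [NormedAddCommGroup T] [NormedSpace ℝ T]
  [FiniteDimensional ℝ T] [NormedAddCommGroup T₁] [NormedSpace ℝ T₁] [FiniteDimensional ℝ T₁]
  [NormedAddCommGroup T₂] [NormedSpace ℝ T₂] [FiniteDimensional ℝ T₂]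

theorem deg : DegStmt d Sl X X₁ X₂ nc nr n₁ r₁ n₂ r₂ T T₁ T₂ :=
  Sm10.Dg.degStmt (Wal9.wallP _ _ _ _ _ _ _ _ _ _ _ _ _ _) (Unq6.uniq (Sep15.S.eqv (Pb50.pb _ _ _)))

theorem gl : GlStmt d Sl X X₁ X₂ nc nr n₁ r₁ n₂ r₂ T T₁ T₂ :=
  Gls64.gl_of map map map ax (Cyl58.Bt.bootStmt md) (Ax1.isoStmt _ _ _ _ _ _ md)
    (Ax1.isoStmt _ _ _ _ _ _ md) (Ax1.liftStmt _ _ _ _ _ _ md) (Ax1.liftStmt _ _ _ _ _ _ md)
    (Gr93.d0 _ _ _ _ _ _ _ _ _ _ _ _ _ _ rep rep rep) (Gr93.d0 _ _ _ _ _ _ _ _ _ _ _ _ _ _ rep rep rep)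
    (Gl50.mtStmt _ _ _ _ _ _ _ _ _ _ _ _ _ _)
    (Shf6.shift _ _ _ _ _ _ _ _ _ _ _ _ _ _ (Gl50.mtStmt _ _ _ _ _ _ _ _ _ _ _ _ _ _))

theorem add : AddStmt d Sl X X₁ X₂ nc nr n₁ r₁ n₂ r₂ T T₁ T₂ :=
  Add68.addStmt md md md (fun _ => md) Frd39.cylB fred

/-- the leaves, from breaking -/
theorem lvs_of (h : BrkStmt κ lam ν) : Lvs d Sl :=
  ⟨fun _ _ _ _ _ => pt, fun _ _ _ _ _ => map, fun _ _ _ _ _ => rep, fun _ _ _ _ _ => fred,
    fun _ _ _ _ _ => ax, fun _ _ _ _ _ => fac, fun _ _ _ _ _ _ _ _ _ _ _ _ _ _ _ => deg,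
    fun _ _ _ _ _ _ _ _ _ _ _ _ _ _ _ => add, fun _ _ _ _ _ _ _ _ _ _ _ _ _ _ _ => gl, Sw21.ccOK, h, cut⟩

end

variable (κ lam ν) in
/-- the open leaves -/
structure Opn : Prop where
  loc : ∀ (d : Dt κ lam ν) [Fintype d.𝓔] (Sl : Type) [Fintype Sl] (X : Mf 4) (nc : ℕ) (T : Type)
    [NormedAddCommGroup T] [NormedSpace ℝ T] [FiniteDimensional ℝ T],
    LocStmt d (Prod.fst : d.𝓔 × Sl → d.𝓔) X nc T
  gap : Dec47.GapStmt κ lam ν
  loj : Dec47.LojStmt κ lam ν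

theorem Opn.dec1 (H : Opn κ lam ν) : Sep15.S.Dec1 κ lam ν :=
  Mcg32.Dec.dec1 dl H.loj (Wd45.wd locw H.gap Lw78.hi Lw78.int)

theorem Opn.brk (H : Opn κ lam ν) : BrkStmt κ lam ν := Sep15.S.brkStmt win dl drift H.dec1 H.loc

end Crest.Agent.X212.Sw.Asm
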