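import Crest.Agent.X212.An.Gsm
import Crest.Agent.X212.Sw.Lv

-- ▼ part X212/Flo2/Main
section

/-!
# Row 212, layer AN-S (helper2): Floer type assembly

Cells with a rank; at a wall `a` of the cell `σ` the solutions break into a pair of solutions of two
cells of lower rank.  Output: good perturbations are open and dense, and Stokes with products.
-/

set_option autoImplicit false
set_option linter.unusedSectionVars false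
noncomputable section
open Set Filter Topology Function

namespace Crest.Agent.X212.Flo2
open Mod61 An

/-- cells `𝒦` with ranks and splittings -/
structure Flo (W Cl A B : Type) : Type 1 extends Gx W Cl A B where
  Adm : (W →₀ ℝ) → Prop
  𝒦 : Set Cl
  rank : Cl → ℕ
  /-- the splittings at the wall `a` into two pieces of index zero -/
  sp : Cl → A → Finset (Cl × Cl)
  /-- the sequence `u` breaks at the wall `a` into `(x, y)` -/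
  Deg : ∀ σ (_ : A) (p : Cl × Cl) {ι : Type}, Ultrafilter ι → (ι → (Q σ).X) →
    (Q p.1).X → (Q p.2).X → Prop

namespace Flo
variable {W Cl A B : Type} (K : Flo W Cl A B)

/-- a regular solution -/
def RS (q : W →₀ ℝ) (σ : Cl) (x : (K.Q σ).X) : Prop := x ∈ K.M σ q ∧ (K.Q σ).Reg q x

/-- good below the rank `r` -/
def G (r : ℕ) (q : W →₀ ℝ) : Prop :=
  K.Adm q ∧ ∀ σ ∈ K.𝒦, K.rank σ < r → ∀ x ∈ K.M σ q, (K.Q σ).Reg q x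

/-- good -/
def GG (q : W →₀ ℝ) : Prop := K.Adm q ∧ ∀ σ ∈ K.𝒦, ∀ x ∈ K.M σ q, (K.Q σ).Reg q x

structure Ax : Prop where
  fin : K.𝒦.Finite
  adm : St.IsOp K.Adm
  cx : ∀ σ ∈ K.𝒦, K.toGx.Ax K.Adm σ
  down : ∀ σ ∈ K.𝒦, ∀ b ∈ K.wb σ, K.fc σ b ∈ K.𝒦 ∧ K.rank (K.fc σ b) ≤ K.rank σ
  sp : ∀ σ ∈ K.𝒦, ∀ a ∈ K.wa σ, ∀ p ∈ K.sp σ a, (K.Q σ).n = 1 ∧
    (p.1 ∈ K.𝒦 ∧ K.rank p.1 < K.rank σ ∧ (K.Q p.1).n = 0) ∧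
      p.2 ∈ K.𝒦 ∧ K.rank p.2 < K.rank σ ∧ (K.Q p.2).n = 0
  dens : ∀ σ ∈ K.𝒦, ∀ q, K.Adm q → ∀ x ∈ K.M σ q, (K.Q σ).Reg q x ∨ ∃ J, (K.Q σ).Onto q x J
  comp : ∀ σ ∈ K.𝒦, ∀ q₀, K.Adm q₀ → ∀ (ι : Type) (𝒰 : Ultrafilter ι) (q : ι → W →₀ ℝ)
    (u : ι → (K.Q σ).X), St.Cv (𝒰 : Filter ι) q q₀ →
    (∀ᶠ i in (𝒰 : Filter ι), K.Adm (q i) ∧ u i ∈ K.M σ (q i)) →
    (∃ x₀ ∈ K.M σ q₀, Tendsto u 𝒰 ((K.Q σ).Near x₀)) ∨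
      (∃ τ ∈ K.𝒦, K.rank τ < K.rank σ ∧ (K.Q τ).n < 0 ∧ (K.M τ q₀).Nonempty) ∨
      ∃ a ∈ K.wa σ, ∃ p ∈ K.sp σ a, ∃ x ∈ K.M p.1 q₀, ∃ y ∈ K.M p.2 q₀, K.Deg σ a p 𝒰 u x y
  deg_one : ∀ σ ∈ K.𝒦, ∀ a ∈ K.wa σ, ∀ p ∈ K.sp σ a, ∀ (ι : Type) (𝒰 : Ultrafilter ι) u x y,
    K.Deg σ a p 𝒰 u x y → Tendsto (fun i => K.pa (u i) a) 𝒰 (𝓝 1)
  deg_lt : ∀ σ ∈ K.𝒦, ∀ a ∈ K.wa σ, ∀ p ∈ K.sp σ a, ∀ (ι : Type) (𝒰 : Ultrafilter ι) u x y,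
    K.Deg σ a p 𝒰 u x y → ∀ a' ∈ K.wa σ, a' ≠ a → ∃ c < 1, ∀ᶠ i in (𝒰 : Filter ι), K.pa (u i) a' ≤ c
  deg_congr : ∀ σ ∈ K.𝒦, ∀ a ∈ K.wa σ, ∀ p ∈ K.sp σ a, ∀ (𝒰 : Ultrafilter ℝ) u u' x y,
    K.Deg σ a p 𝒰 u x y → (∀ᶠ i in (𝒰 : Filter ℝ), (K.Q σ).In (u i) ∧ (K.Q σ).eqv (u i) (u' i)) →
    K.Deg σ a p 𝒰 u' x y
  deg_eqv : ∀ σ ∈ K.𝒦, ∀ a ∈ K.wa σ, ∀ p ∈ K.sp σ a, ∀ (𝒰 : Ultrafilter ℝ) u q x y x' y',
    K.Adm q → x ∈ K.M p.1 q → y ∈ K.M p.2 q → (K.Q p.1).eqv x x' → (K.Q p.2).eqv y y' →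
    K.Deg σ a p 𝒰 u x y → K.Deg σ a p 𝒰 u x' y'
  deg_sp : ∀ σ ∈ K.𝒦, ∀ a ∈ K.wa σ, ∀ p ∈ K.sp σ a, ∀ p' ∈ K.sp σ a, ∀ (𝒰 : Ultrafilter ℝ) u q
    x y x' y', K.Adm q → (∀ᶠ i in (𝒰 : Filter ℝ), u i ∈ K.M σ q) → x ∈ K.M p.1 q → y ∈ K.M p.2 q →
    x' ∈ K.M p'.1 q → y' ∈ K.M p'.2 q → K.Deg σ a p 𝒰 u x y → K.Deg σ a p' 𝒰 u x' y' → p = p'
  deg_uniq : ∀ σ ∈ K.𝒦, ∀ a ∈ K.wa σ, ∀ p ∈ K.sp σ a, ∀ (𝒰 : Ultrafilter ℝ) u q x y x' y',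
    K.Adm q → (∀ᶠ i in (𝒰 : Filter ℝ), u i ∈ K.M σ q) → x ∈ K.M p.1 q → y ∈ K.M p.2 q →
    x' ∈ K.M p.1 q → y' ∈ K.M p.2 q → K.Deg σ a p 𝒰 u x y → K.Deg σ a p 𝒰 u x' y' →
    (K.Q p.1).eqv x x' ∧ (K.Q p.2).eqv y y'
  gl_reg : ∀ σ ∈ K.𝒦, ∀ a ∈ K.wa σ, ∀ p ∈ K.sp σ a, ∀ q₀, K.G (K.rank σ) q₀ → ∀ x y, K.RS q₀ p.1 x →
    K.RS q₀ p.2 y → ∀ (ι : Type) (𝒰 : Ultrafilter ι) (q : ι → W →₀ ℝ) u,
    St.Cv (𝒰 : Filter ι) q q₀ → (∀ᶠ i in (𝒰 : Filter ι), K.Adm (q i) ∧ u i ∈ K.M σ (q i)) →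
    K.Deg σ a p 𝒰 u x y → ∀ᶠ i in (𝒰 : Filter ι), K.Tr (q i) (u i) a
  gl_ex : ∀ σ ∈ K.𝒦, ∀ a ∈ K.wa σ, ∀ p ∈ K.sp σ a, ∀ q, K.G (K.rank σ) q → ∀ x y, K.RS q p.1 x →
    K.RS q p.2 y → ∀ 𝒰 : Ultrafilter ℝ, (𝒰 : Filter ℝ) ≤ 𝓝[<] 1 → ∃ u,
      (∀ᶠ T in (𝒰 : Filter ℝ), u T ∈ K.M σ q ∧ K.pa (u T) a = T) ∧ K.Deg σ a p 𝒰 u x y
  gl_uniq : ∀ σ ∈ K.𝒦, ∀ a ∈ K.wa σ, ∀ p ∈ K.sp σ a, ∀ q, K.G (K.rank σ) q → ∀ x y, K.RS q p.1 x →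
    K.RS q p.2 y → ∀ 𝒰 : Ultrafilter ℝ, (𝒰 : Filter ℝ) ≤ 𝓝[<] 1 → ∀ u u',
      (∀ᶠ T in (𝒰 : Filter ℝ), u T ∈ K.M σ q ∧ K.pa (u T) a = T) →
      (∀ᶠ T in (𝒰 : Filter ℝ), u' T ∈ K.M σ q ∧ K.pa (u' T) a = T) →
      K.Deg σ a p 𝒰 u x y → K.Deg σ a p 𝒰 u' x y →
      ∀ᶠ T in (𝒰 : Filter ℝ), (K.Q σ).eqv (u T) (u' T)

/-- face objects -/
def Fc (σ : Cl) (a : A) : Type := Σ p : K.sp σ a, (K.Q p.1.1).X × (K.Q p.1.2).X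

/-- equivalence of face objects -/
def feq (σ : Cl) (a : A) : Setoid (K.Fc σ a) where
  r y y' := ∃ p x₁ x₂ x₁' x₂', y = ⟨p, x₁, x₂⟩ ∧ y' = ⟨p, x₁', x₂'⟩ ∧
    (K.Q _).eqv x₁ x₁' ∧ (K.Q _).eqv x₂ x₂'
  iseqv := by
    refine ⟨fun y => ⟨y.1, y.2.1, y.2.2, y.2.1, y.2.2, rfl, rfl, (K.Q _).eqv.refl _,
      (K.Q _).eqv.refl _⟩, ?_, ?_⟩
    · rintro _ _ ⟨p, a, b, c, d, rfl, rfl, h1, h2⟩
      exact ⟨p, c, d, a, b, rfl, rfl, (K.Q _).eqv.symm h1, (K.Q _).eqv.symm h2⟩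
    · rintro _ _ _ ⟨p, a, b, c, d, rfl, rfl, h1, h2⟩ ⟨p', a', b', c', d', e, rfl, h3, h4⟩
      cases e
      exact ⟨p, a, b, c', d', rfl, rfl, (K.Q _).eqv.trans h1 h3, (K.Q _).eqv.trans h2 h4⟩

/-- the stage of rank `r` -/
def st (r : ℕ) : Gsm W Cl A B where
  toGx := K.toGx
  Adm := K.Adm
  G := K.G r
  𝒦 := {σ | σ ∈ K.𝒦 ∧ K.rank σ ≤ r}
  Fc := K.Fc
  FSol q y := y.2.1 ∈ K.M _ q ∧ y.2.2 ∈ K.M _ q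
  feq := K.feq
  Deg {σ a} _ 𝒰 u y := K.Deg σ a y.1.1 𝒰 u y.2.1 y.2.2

theorem st_GG (r : ℕ) : (K.st r).GG = K.G (r + 1) := by
  funext q
  refine propext ⟨fun h => ⟨h.1.1, fun σ hσ hr => h.2 σ ⟨hσ, Nat.lt_succ_iff.1 hr⟩⟩,
    fun h => ⟨⟨h.1, fun σ hσ hr => h.2 σ hσ (hr.trans r.lt_succ_self)⟩,
      fun σ hσ => h.2 σ hσ.1 (Nat.lt_succ_iff.2 hσ.2)⟩⟩

/-- classes of face objects are pairs of classes -/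
def fclEquiv (r : ℕ) (q : W →₀ ℝ) (σ : Cl) (a : A) : (K.st r).FCl q σ a ≃
    Σ p : K.sp σ a, (K.Q p.1.1).Cl (K.M p.1.1 q) × (K.Q p.1.2).Cl (K.M p.1.2 q) :=
  Equiv.ofBijective (Quotient.lift (fun y => ⟨y.1.1, Quotient.mk _ ⟨y.1.2.1, y.2.1⟩,
      Quotient.mk _ ⟨y.1.2.2, y.2.2⟩⟩) (by
    rintro ⟨_, h⟩ ⟨_, h'⟩ ⟨p, a, b, c, d, rfl, rfl, h1, h2⟩
    exact congrArg (Sigma.mk p) (Prod.ext (Quotient.sound h1) (Quotient.sound h2)))) ⟨by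
    intro m m'
    obtain ⟨⟨⟨p, a, b⟩, h⟩, rfl⟩ := Quotient.mk_surjective m
    obtain ⟨⟨⟨p', c, d⟩, h'⟩, rfl⟩ := Quotient.mk_surjective m'
    intro e
    simp only [Quotient.lift_mk] at e
    obtain rfl : p = p' := congrArg Sigma.fst e
    have e' := eq_of_heq (Sigma.mk.inj e).2
    have e1 := Quotient.exact (congrArg Prod.fst e')
    have e2 := Quotient.exact (congrArg Prod.snd e')
    exact Quotient.sound ⟨p, a, b, c, d, rfl, rfl, e1, e2⟩, by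
    rintro ⟨p, m, m'⟩
    obtain ⟨x, rfl⟩ := Quotient.mk_surjective m
    obtain ⟨y, rfl⟩ := Quotient.mk_surjective m'
    exact ⟨Quotient.mk _ ⟨⟨p, x.1, y.1⟩, x.2, y.2⟩, rfl⟩⟩

variable {K} {σ : Cl} {q : W →₀ ℝ}

theorem G.mono {r s : ℕ} (h : K.G s q) (hr : r ≤ s) : K.G r q :=
  ⟨h.1, fun σ hσ h' => h.2 σ hσ (h'.trans_le hr)⟩

theorem GG.G (h : K.GG q) (r : ℕ) : K.G r q := ⟨h.1, fun σ hσ _ => h.2 σ hσ⟩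

namespace Ax
variable (h : K.Ax)
include h

theorem step {r : ℕ} (low : Low.Ax ⟨K.Adm, K.G r⟩)
    (hf : ∀ σ ∈ K.𝒦, K.rank σ < r → (K.Q σ).n = 0 → ∀ q, K.G r q → Finite ((K.Q σ).Cl (K.M σ q))) :
    (K.st r).Ax where
  fin := h.fin.subset fun _ hσ => hσ.1
  low := low
  cx σ hσ := h.cx σ hσ.1
  down σ hσ b hb := ⟨(h.down σ hσ.1 b hb).1, (h.down σ hσ.1 b hb).2.trans hσ.2⟩
  dens σ hσ := h.dens σ hσ.1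
  comp σ hσ q₀ h0 ι 𝒰 q u hq hu := by
    rcases h.comp σ hσ.1 q₀ h0.1 ι 𝒰 q u hq hu with h1 | ⟨τ, h1, h2, h3, x, hx⟩ |
      ⟨a, ha, p, hp, x, hx, y, hy, h1⟩
    · exact .inl h1
    · rw [(h.cx τ h1).empty h0.1 h3 (h0.2 τ h1 (h2.trans_le hσ.2))] at hx
      exact hx.elim
    · exact .inr ⟨a, ha, ⟨⟨p, hp⟩, x, y⟩, ⟨hx, hy⟩, h1⟩
  deg_one σ hσ a ha ι 𝒰 u y := h.deg_one σ hσ.1 a ha _ y.1.2 ι 𝒰 u _ _
  deg_lt σ hσ a ha ι 𝒰 u y := h.deg_lt σ hσ.1 a ha _ y.1.2 ι 𝒰 u _ _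
  deg_congr σ hσ a ha 𝒰 u u' y := h.deg_congr σ hσ.1 a ha _ y.1.2 𝒰 u u' _ _
  deg_eqv σ hσ a ha q hq 𝒰 u := by
    rintro ⟨⟨p, hp⟩, x, y⟩ ⟨⟨p', hp'⟩, x', y'⟩ hu h1 h2 h3
    refine ⟨fun h4 => ?_, ?_⟩
    · obtain rfl := h.deg_sp σ hσ.1 a ha p hp p' hp' 𝒰 u q x y x' y' hq.1 hu h1.1 h1.2 h2.1 h2.2 h3 h4
      have := h.deg_uniq σ hσ.1 a ha p hp 𝒰 u q x y x' y' hq.1 hu h1.1 h1.2 h2.1 h2.2 h3 h4
      exact ⟨_, x, y, x', y', rfl, rfl, this.1, this.2⟩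
    · rintro ⟨p'', x₁, y₁, x₂, y₂, e, e', h4, h5⟩
      cases e
      cases e'
      exact h.deg_eqv σ hσ.1 a ha p hp 𝒰 u q _ _ _ _ hq.1 h1.1 h1.2 h4 h5 h3
  nof σ hσ hn a ha q _ y _ := by
    have := (h.sp σ hσ.1 a ha _ y.1.2).1
    have hn' : (K.Q σ).n ≤ 0 := hn
    omega
  ffin σ hσ _ a ha q hq := by
    have : ∀ p : K.sp σ a, Finite ((K.Q p.1.1).Cl (K.M p.1.1 q) × (K.Q p.1.2).Cl (K.M p.1.2 q)) :=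
      fun p => by
        obtain ⟨-, ⟨h1, h2, h3⟩, h4, h5, h6⟩ := h.sp σ hσ.1 a ha _ p.2
        have := hf _ h1 (h2.trans_le hσ.2) h3 q hq
        have := hf _ h4 (h5.trans_le hσ.2) h6 q hq
        infer_instance
    exact Finite.of_equiv _ (K.fclEquiv r q σ a).symm
  gl_reg σ hσ a ha q₀ h0 ι 𝒰 q u y hq hu hy := by
    obtain ⟨-, ⟨h1, h2, -⟩, h4, h5, -⟩ := h.sp σ hσ.1 a ha _ y.1.2
    exact h.gl_reg σ hσ.1 a ha _ y.1.2 q₀ (G.mono h0 hσ.2) _ _ ⟨hy.1, h0.2 _ h1 (h2.trans_le hσ.2) _ hy.1⟩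
      ⟨hy.2, h0.2 _ h4 (h5.trans_le hσ.2) _ hy.2⟩ ι 𝒰 q u hq hu
  gl_ex σ hσ a ha q h0 y hy := by
    obtain ⟨-, ⟨h1, h2, -⟩, h4, h5, -⟩ := h.sp σ hσ.1 a ha _ y.1.2
    exact h.gl_ex σ hσ.1 a ha _ y.1.2 q (G.mono h0 hσ.2) _ _ ⟨hy.1, h0.2 _ h1 (h2.trans_le hσ.2) _ hy.1⟩
      ⟨hy.2, h0.2 _ h4 (h5.trans_le hσ.2) _ hy.2⟩
  gl_uniq σ hσ a ha q h0 y hy := by
    obtain ⟨-, ⟨h1, h2, -⟩, h4, h5, -⟩ := h.sp σ hσ.1 a ha _ y.1.2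
    exact h.gl_uniq σ hσ.1 a ha _ y.1.2 q (G.mono h0 hσ.2) _ _ ⟨hy.1, h0.2 _ h1 (h2.trans_le hσ.2) _ hy.1⟩
      ⟨hy.2, h0.2 _ h4 (h5.trans_le hσ.2) _ hy.2⟩

theorem st (r : ℕ) : (K.st r).Ax := by
  induction r with
  | zero =>
    have e : K.G 0 = K.Adm := funext fun q => propext ⟨fun h => h.1, fun h => ⟨h, by simp⟩⟩
    exact h.step (by
      rw [e]; exact ⟨fun _ hq => hq, h.adm, fun _ _ q₀ h1 h2 => ⟨q₀, h2, h1⟩⟩) (by simp)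
  | succ r ih =>
    refine h.step (by rw [← st_GG]; exact ih.gg) fun σ hσ hr hn q hq => ?_
    exact ih.finite (by rw [st_GG]; exact hq) ⟨hσ, Nat.lt_succ_iff.1 hr⟩ hn

theorem exists_top : ∃ r, K.G (r + 1) = K.GG := by
  obtain ⟨r, hr⟩ := (h.fin.image K.rank).bddAbove
  exact ⟨r, funext fun q => propext ⟨fun hq => ⟨hq.1, fun σ hσ =>
    hq.2 σ hσ (Nat.lt_succ_iff.2 (hr ⟨σ, hσ, rfl⟩))⟩, fun hq => hq.G _⟩⟩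

/-- **The good perturbations are open and dense.** -/
theorem gg : Low.Ax ⟨K.Adm, K.GG⟩ := by
  obtain ⟨r, hr⟩ := h.exists_top
  rw [← hr, ← st_GG]
  exact (h.st r).gg

omit h in
theorem st_gg (hq : K.GG q) (r : ℕ) : (K.st r).GG q := by
  rw [st_GG]; exact hq.G _

/-- negative index -/
theorem empty (hq : K.GG q) (hσ : σ ∈ K.𝒦) (hn : (K.Q σ).n < 0) : K.M σ q = ∅ :=
  (h.st (K.rank σ)).empty (st_gg hq _) ⟨hσ, le_rfl⟩ hn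

theorem cpt (hq : K.GG q) (hσ : σ ∈ K.𝒦) (hn : (K.Q σ).n ≤ 0) : (K.Q σ).Cpt (K.M σ q) :=
  (h.st (K.rank σ)).cpt (hq.G _) ⟨hσ, le_rfl⟩ hn

/-- index zero -/
theorem finite (hq : K.GG q) (hσ : σ ∈ K.𝒦) (hn : (K.Q σ).n = 0) :
    Finite ((K.Q σ).Cl (K.M σ q)) :=
  (h.st (K.rank σ)).finite (st_gg hq _) ⟨hσ, le_rfl⟩ hn

/-- **Stokes.** -/
theorem stokes (hq : K.GG q) (hσ : σ ∈ K.𝒦) (hn : (K.Q σ).n = 1) :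
    Even (∑ b ∈ K.wb σ, K.z q (K.fc σ b) +
      ∑ a ∈ K.wa σ, ∑ p ∈ K.sp σ a, K.z q p.1 * K.z q p.2) := by
  have h1 := (h.st (K.rank σ)).stokes (st_gg hq _) ⟨hσ, le_rfl⟩ hn
  have h2 : ∀ a ∈ K.wa σ, (K.st (K.rank σ)).zf q σ a = ∑ p ∈ K.sp σ a, K.z q p.1 * K.z q p.2 :=
    fun a ha => by
      have : ∀ p : K.sp σ a, Finite ((K.Q p.1.1).Cl (K.M p.1.1 q) × (K.Q p.1.2).Cl (K.M p.1.2 q)) :=
        fun p => by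
          obtain ⟨-, ⟨h1, -, h3⟩, h4, -, h6⟩ := h.sp σ hσ a ha _ p.2
          have := h.finite hq h1 h3
          have := h.finite hq h4 h6
          infer_instance
      rw [Gsm.zf, Nat.card_congr (K.fclEquiv _ q σ a), Nat.card_sigma,
        ← Finset.sum_coe_sort (K.sp σ a)]
      exact Finset.sum_congr rfl fun p _ => Nat.card_prod _ _
  rw [← Finset.sum_congr rfl h2]
  exact h1

end Ax
end Flo

/-- index bookkeeping for a broken limit with at least two components -/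
theorem chain_cases {l : List ℤ} {n : ℤ} (h2 : 2 ≤ l.length) (hn : n ≤ 1)
    (hs : l.sum + (l.length - 1) = n) : (∃ k ∈ l, k < 0) ∨ (n = 1 ∧ l = [0, 0]) := by
  by_cases h : ∃ k ∈ l, k < 0
  · exact .inl h
  · push Not at h
    have h0 := List.sum_nonneg h
    match l, h2 with
    | [a, b], _ =>
      have := h a (by simp)
      have := h b (by simp)
      simp only [List.sum_cons, List.sum_nil, List.length_cons, List.length_nil] at hs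
      push_cast at hs
      obtain rfl : a = 0 := by omega
      obtain rfl : b = 0 := by omega
      exact .inr ⟨by omega, rfl⟩
    | a :: b :: c :: l, _ =>
      simp only [List.length_cons] at hs
      push_cast at hs
      omega

end Crest.Agent.X212.Flo2
end
end

-- ▼ part X212/Sw/Wld

/-!
# Row 212, layer AN-S (helper91): worlds of cells

`Wld` : sites, families over them, facets (restrictions), walls (splittings).  `Wld.flo` : the Floer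
system of a finite set of cells.  `Cl.Ok` : what a cell has to satisfy.
-/

set_option autoImplicit false
set_option linter.unusedSectionVars false
noncomputable section
open scoped Manifold ContDiff Topology InnerProductSpace
open MeasureTheory Set Function Filter

namespace Crest.Agent.X212.Sw
open An Cyf70 Prm93 En3
open Mod61 (Prob)
open Nd18 (Jv)
open M (Mf)

variable {κ lam ν : Type} [Fintype κ] [Fintype lam] [Fintype ν] [DecidableEq ν]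

/-- the restriction of a family along an affine map -/
def Fam.res {d : Dt κ lam ν} {N : Type} {ty : N → d.𝓔} {X : Mf 4} {nc : ℕ}
    {s : Pz X 0 fun i => d.e (ty i)} {T T' : Type} [NormedAddCommGroup T] [NormedSpace ℝ T]
    [NormedAddCommGroup T'] [NormedSpace ℝ T'] (𝓕 : Fam s nc T) (j : T' →ᴬ[ℝ] T) : Fam s nc T' :=
  ⟨fun t => 𝓕.P (j t), j ⁻¹' 𝓕.Q, fun t => 𝓕.S (j t), fun t => 𝓕.Si (j t)⟩

variable (d : Dt κ lam ν) [Fintype d.𝓔] (Sl : Type) [Fintype Sl]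

/-- limits -/
abbrev BC : Type := BCs fun i : d.𝓔 × Sl => d.e i.1

/-- walls -/
abbrev WA : Type := (d.𝓔 × Sl) × Option Bool

/-- a site with its rows; `nr = 1` for centred trajectories -/
structure BSt : Type 1 where
  X : Mf 4
  nc : ℕ
  nr : ℕ
  s : StS d Sl X
  R : BC d Sl → Cfg X.M κ ν → Fin nr → ℝ

/-- a world: sites `S`, families `Fm`, facets `B`, walls `Wl` -/
structure Wld : Type 1 where
  S : Type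
  st : S → BSt d Sl
  Fm : S → Type
  I : ∀ {a}, Fm a → Type
  [fI : ∀ a (f : Fm a), Fintype (I f)]
  fam : ∀ {a} (f : Fm a), Fam (st a).s (st a).nc (I f → ℝ)
  B : Type
  wb : ∀ {a}, Fm a → Finset B
  g : ∀ {a} (f : Fm a), B → (I f → ℝ) →ᴬ[ℝ] ℝ
  fc : ∀ {a}, Fm a → B → Fm a
  j : ∀ {a} (f : Fm a) (b : B), (I (fc f b) → ℝ) →ᴬ[ℝ] (I f → ℝ)
  res : ∀ {a} (f : Fm a) (b : B), fam (fc f b) = (fam f).res (j f b)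
  Wl : ∀ {a}, Fm a → Type
  [fW : ∀ a (f : Fm a), Fintype (Wl f)]
  aL : ∀ {a} {f : Fm a}, Wl f → S
  aR : ∀ {a} {f : Fm a}, Wl f → S
  fL : ∀ {a} {f : Fm a} (w : Wl f), Fm (aL w)
  fR : ∀ {a} {f : Fm a} (w : Wl f), Fm (aR w)
  p : ∀ {a} {f : Fm a} (w : Wl f), Spl (st a).X (st (aL w)).X (st (aR w)).X (st a).nc (st (aL w)).nc
    (st (aR w)).nc d Sl (I f → ℝ) (I (fL w) → ℝ) (I (fR w) → ℝ)
  bl : ∀ {a} {f : Fm a} (w : Wl f), BC d Sl → (d.e (p w).ε).YC → BC d Sl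
  br : ∀ {a} {f : Fm a} (w : Wl f), BC d Sl → (d.e (p w).ε).YC → BC d Sl

attribute [instance] Wld.fI Wld.fW

variable {d Sl}

namespace Wld
variable (W : Wld d Sl)

/-- cells -/
structure Cl : Type where
  a : W.S
  f : W.Fm a
  β : BC d Sl

variable {W} (σ : W.Cl)

/-- the cell -/
abbrev Cl.cel : Cel (W.st σ.a).s (W.st σ.a).nc (W.st σ.a).nr (W.I σ.f → ℝ) :=
  ⟨W.fam σ.f, σ.β, fun _ => (W.st σ.a).R σ.β⟩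

/-- facets -/
abbrev Cl.fc (b : W.B) : W.Cl := ⟨σ.a, W.fc σ.f b, σ.β⟩

/-- the past piece at a wall -/
abbrev Cl.L (w : W.Wl σ.f) (v : (d.e (W.p w).ε).YC) : W.Cl := ⟨W.aL w, W.fL w, W.bl w σ.β v⟩

/-- the future piece at a wall -/
abbrev Cl.R (w : W.Wl σ.f) (v : (d.e (W.p w).ε).YC) : W.Cl := ⟨W.aR w, W.fR w, W.br w σ.β v⟩

open Classical in
/-- the index -/
def Cl.n : ℤ := if h : ∃ n, σ.cel.Ind n then h.choose else 0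

/-- the closed domain of parameters -/
def Cl.Dom (t : W.I σ.f → ℝ) : Prop := ∀ b ∈ W.wb σ.f, 0 ≤ W.g σ.f b t

/-- admissible middle points -/
structure Cl.Lv (Γ : Ctx d) (w : W.Wl σ.f) (v : (d.e (W.p w).ε).YC) : Prop where
  V : v ∈ Γ.V (W.p w).ε
  R : (W.p w).o = some true → En3.L (σ.β ((W.p w).ε, (W.p w).a) true) < En3.L v
  L : (W.p w).o = some false ∨ (W.st σ.a).nr = 1 →
    En3.L v < En3.L (σ.β ((W.p w).ε, (W.p w).a) false)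

/-- the number of solutions -/
def Cl.z (q : d.W →₀ ℝ) : ℕ :=
  Nat.card (Quot fun y y' : {y : σ.cel.Pnt // σ.cel.Sol q y ∧ σ.Dom y.1.1} => σ.cel.Eqv y.1 y'.1)

/-- the count in index zero -/
def Cl.z0 (q : d.W →₀ ℝ) : ℕ := if σ.n = 0 then σ.z q else 0

/-- the terms of compact support vanish deep in the neck `j` -/
def _root_.Crest.Agent.X212.Sw.Cel.FoN {X : Mf 4} {nc nr : ℕ} {T : Type} {s : StS d Sl X}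
    (σ : Cel s nc nr T) (j : d.𝓔 × Sl) : Prop :=
  ∀ w, ∃ r, ∀ t ∈ σ.Q, ∀ K ∈ (σ.P t).nk j, ∀ x ∈ univ ×ˢ K.deep r, (σ.P t).fo w (K.ψ x) = 0

/-- what a cell of the system `G` satisfies -/
structure Cl.Ok (Γ : Ctx d) (G : W.Cl → Prop) (rank : W.Cl → ℕ) : Prop where
  ok : σ.cel.OK
  n : σ.n ≤ 1
  cen : (W.st σ.a).nr = 0 ∨ ∃ i, σ.cel.Cen i ∧ Nonempty (W.Wl σ.f) ∧
    ∀ w : W.Wl σ.f, (W.p w).wl = (i, some true)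
  /-- facets -/
  fc : ∀ b ∈ W.wb σ.f, G (σ.fc b) ∧ rank (σ.fc b) < rank σ ∧ Injective (W.j σ.f b) ∧
    range (W.j σ.f b) = W.g σ.f b ⁻¹' {0} ∧ (W.g σ.f b).contLinear ≠ 0 ∧
    (∀ t, (σ.fc b).Dom t ↔ σ.Dom (W.j σ.f b t)) ∧
    (∀ b' ∈ W.wb σ.f, b' ≠ b → ∀ t, W.g σ.f b' (W.j σ.f b t) = 0 →
      ∃ b'' ∈ W.wb (W.fc σ.f b), W.g _ b'' t = 0) ∧
    ∀ w : W.Wl σ.f, (∃ w' : W.Wl (W.fc σ.f b), (W.p w').wl = (W.p w).wl) ∨ ((W.p w).o = none ∧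
      ∀ t, W.j σ.f b t ∈ σ.cel.Q → (σ.cel.P (W.j σ.f b t)).len (W.p w).wl.1 ≤ 5 / 2)
  /-- walls -/
  inj : ∀ w w' : W.Wl σ.f, (W.p w).wl = (W.p w').wl → w = w'
  inf : ∀ w : W.Wl σ.f, (W.p w).o.elim ((W.st σ.a).s.nk (W.p w).wl.1 = none)
    ((W.st σ.a).s.Inf (W.p w).wl.1)
  all : (W.st σ.a).nr = 0 → ∀ i b, (W.st σ.a).s.Inf i b → ∃ w : W.Wl σ.f, (W.p w).wl = (i, some b)
  cpt : ∀ r : ℝ, ∃ D, IsCompact D ∧ D ⊆ σ.cel.Q ∧ ∀ t ∈ σ.cel.Q, σ.Dom t →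
    (∀ w : W.Wl σ.f, (W.p w).o = none → (σ.cel.P t).len (W.p w).wl.1 ≤ r) → t ∈ D
  fin : ∀ w : W.Wl σ.f, (W.p w).o = none → (∃ B, σ.cel.HolB (W.p w).wl.1 B) ∧
    σ.cel.FoN (W.p w).wl.1 ∧ σ.cel.Nul (W.p w).wl.1
  mid : ∀ (w : W.Wl σ.f) v, W.bl w σ.β v ((W.p w).ε, (W.p w).aL) true = v
  spl : ∀ (w : W.Wl σ.f) v, σ.Lv Γ w v → (W.p w).OK σ.cel (σ.L w v).cel (σ.R w v).cel ∧
    rank (σ.L w v) < rank σ ∧ rank (σ.R w v) < rank σ ∧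
    ∃ l, ∀ δ ∈ (W.p w).Δ, l ≤ δ.2 - δ.1 → ∀ tL tR,
      σ.Dom ((W.p w).par tL tR δ) ↔ (σ.L w v).Dom tL ∧ (σ.R w v).Dom tR
  sz : ∀ w, ∃ r, 0 ≤ r ∧ ∀ t ∈ σ.cel.Q, (σ.cel.P t).Sz 6 w r

/-- the pieces at the walls belong to the system -/
def Cl.Chl (Γ : Ctx d) (G : W.Cl → Prop) (C : ℝ) : Prop := ∀ (w : W.Wl σ.f) v, σ.Lv Γ w v →
  |hol v| ≤ C → ((σ.L w v).n ≤ 0 → G (σ.L w v)) ∧ (0 ≤ (σ.L w v).n → G (σ.R w v))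

/-- the analysis on a cell -/
structure Cl.An (C η₀ : ℝ) (O : (d.W →₀ ℝ) → Prop) : Prop where
  bnd : ∀ q, O q → ∀ y, σ.cel.Sol q y → σ.Dom y.1.1 → σ.cel.Bnd C η₀ y
  irr : ∀ q, O q → ∀ y : σ.cel.Pnt, σ.Dom y.1.1 →
    (σ.cel.P y.1.1).bg.Sol ((σ.cel.P y.1.1).pt q) y.1.2 → ∃ x, y.1.2.Φ x ≠ 0
  dens : ∀ q, O q → ∀ y, σ.cel.Sol q y → σ.Dom y.1.1 →
    σ.cel.Reg 7 q y ∨ σ.cel.Onto 7 q y

/-- the trivial gauge group -/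
def _root_.Crest.Agent.X212.Sw.Cel.gd0 {X : Mf 4} {nc nr : ℕ} {T : Type} [NormedAddCommGroup T]
    [NormedSpace ℝ T] [FiniteDimensional ℝ T] {s : StS d Sl X} (σ : Cel s nc nr T) (k : ℕ) :
    σ.GD k :=
  letI : MulAction PUnit (σ.C k) :=
    { smul := fun _ v => v, one_smul := fun _ => rfl, mul_smul := fun _ _ _ => rfl }
  { G := PUnit, L := ℝ, H := ℝ, U := fun _ _ h => h, inv := fun _ _ _ _ _ _ => rfl }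

open Classical in
/-- the gauge group -/
def Cl.Γ : σ.cel.GD 7 :=
  if h : ∃ Γ : σ.cel.GD 7, (σ.cel.prob Γ σ.n).Ax (fun _ => True) ∧ Equivalence σ.cel.Eqv then
    h.choose else σ.cel.gd0 7

/-- the moduli problem -/
abbrev Cl.Q : Prob d.W := σ.cel.prob σ.Γ σ.n

theorem Cl.cel_fc (b : W.B) : (σ.fc b).cel = σ.cel.res (W.j σ.f b) := by
  unfold Cl.cel
  rw [W.res]
  rfl

/-- the inclusion of a facet -/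
def Cl.inc (b : W.B) (y : (σ.fc b).cel.Pnt) : σ.cel.Pnt :=
  ⟨(W.j σ.f b y.1.1, y.1.2), by
    have := y.2
    simp only [W.res] at this
    exact this⟩

variable (W)

open Classical in
/-- the complex of cells -/
def gx : Gx d.W W.Cl (WA d Sl) W.B where
  Q σ := σ.Q
  wa σ := Finset.univ.image fun w : W.Wl σ.f => (W.p w).wl
  wb σ := W.wb σ.f
  ta σ a _ := σ.cel.rr 7 (σ.cel.wf a)
  tb σ b _ := σ.cel.rr 7 fun t _ => W.g σ.f b t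
  fc σ b := σ.fc b
  inc σ b x := ⟨(), σ.inc b x.2⟩

open Classical in
/-- the Floer system of the cells `𝒦` -/
def flo (Γ : Ctx d) (Adm : (d.W →₀ ℝ) → Prop) (𝒦 : Finset W.Cl) (rank : W.Cl → ℕ) :
    Flo2.Flo d.W W.Cl (WA d Sl) W.B where
  toGx := W.gx
  Adm := Adm
  𝒦 := 𝒦
  rank := rank
  sp σ a := {p ∈ 𝒦 ×ˢ 𝒦 | p.1.n = 0 ∧ p.2.n = 0 ∧
    ∃ w v, (W.p w).wl = a ∧ σ.Lv Γ w v ∧ p = (σ.L w v, σ.R w v)}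
  Deg σ a p _ 𝒰 u x y := ∃ w v x' y', (W.p w).wl = a ∧
    (⟨p, x, y⟩ : Σ p : W.Cl × W.Cl, p.1.Q.X × p.2.Q.X) = ⟨(σ.L w v, σ.R w v), x', y'⟩ ∧
    (W.p w).Deg (σ := σ.cel) (σL := (σ.L w v).cel) (σR := (σ.R w v).cel) 𝒰 (fun i => (u i).2)
      x'.2 y'.2

end Wld

/-- the leaves, for all sites -/
structure Lvs (d : Dt κ lam ν) [Fintype d.𝓔] (Sl : Type) [Fintype Sl] : Prop where
  pt : ∀ X nc nr (I : Type) [Fintype I], PtStmt d (Prod.fst : d.𝓔 × Sl → _) X nc nr (I → ℝ)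
  map : ∀ X nc nr (I : Type) [Fintype I], MapStmt d (Prod.fst : d.𝓔 × Sl → _) X nc nr (I → ℝ)
  rep : ∀ X nc nr (I : Type) [Fintype I], RepStmt d (Prod.fst : d.𝓔 × Sl → _) X nc nr (I → ℝ)
  fred : ∀ X nc nr (I : Type) [Fintype I], FredStmt d (Prod.fst : d.𝓔 × Sl → _) X nc nr (I → ℝ)
  ax : ∀ X nc nr (I : Type) [Fintype I], AxStmt d (Prod.fst : d.𝓔 × Sl → _) X nc nr (I → ℝ)
  fac : ∀ X nc nr (I : Type) [Fintype I], FacStmt d (Prod.fst : d.𝓔 × Sl → _) X nc nr (I → ℝ)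
  deg : ∀ X XL XR nc nr ncL nrL ncR nrR (I IL IR : Type) [Fintype I] [Fintype IL] [Fintype IR],
    DegStmt d Sl X XL XR nc nr ncL nrL ncR nrR (I → ℝ) (IL → ℝ) (IR → ℝ)
  add : ∀ X XL XR nc nr ncL nrL ncR nrR (I IL IR : Type) [Fintype I] [Fintype IL] [Fintype IR],
    AddStmt d Sl X XL XR nc nr ncL nrL ncR nrR (I → ℝ) (IL → ℝ) (IR → ℝ)
  gl : ∀ X XL XR nc nr ncL nrL ncR nrR (I IL IR : Type) [Fintype I] [Fintype IL] [Fintype IR],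
    GlStmt d Sl X XL XR nc nr ncL nrL ncR nrR (I → ℝ) (IL → ℝ) (IR → ℝ)
  cc : ∀ i β, (∀ j : d.𝓔 × Sl, (d.e j.1).OK) → 0 < (d.e i.1).w → (∀ b, En3.Gd (β i b)) →
    (d.cc (Prod.fst : d.𝓔 × Sl → _) i (Empty → ℝ) 0 β).OK
  brk : BrkStmt κ lam ν
  cut : CutStmt κ lam ν

/-- **SW-WLD** : the Floer system of a world, and its counts -/
def WldStmt (d : Dt κ lam ν) [Fintype d.𝓔] (Sl : Type) [Fintype Sl] : Prop :=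
  ∀ (W : Wld d Sl) (Γ : Ctx d) (G : W.Cl → Prop) rank (C η₀ r₀ : ℝ) O, 0 < η₀ → St.IsOp O → O 0 →
    (∀ σ, G σ → σ.Ok Γ G rank ∧ (∀ r, σ.Chl Γ G r) ∧ σ.An C η₀ O) → ∀ 𝒯 : Set W.Cl, 𝒯.Finite →
    (∀ σ ∈ 𝒯, G σ) → ∃ (𝒦 : Finset W.Cl) (Adm : _), 𝒯 ⊆ 𝒦 ∧ (∀ σ ∈ 𝒦, G σ ∧ σ.Chl Γ (· ∈ 𝒦) r₀) ∧ Adm 0 ∧
      (W.flo Γ Adm 𝒦 rank).Ax ∧ (∀ q, Adm q → O q) ∧
      (∀ σ ∈ 𝒦, ∀ q, (W.flo Γ Adm 𝒦 rank).z q σ = σ.z q) ∧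
      ∀ q, (W.flo Γ Adm 𝒦 rank).GG q → ∀ σ ∈ 𝒦, σ.n = 1 →
        ∀ D : ∀ w : W.Wl σ.f, Finset (d.e (W.p w).ε).YC,
        (∀ w, ∀ v ∈ D w, σ.Lv Γ w v ∧ |hol v| ≤ r₀) →
        (∀ w v, σ.Lv Γ w v → v ∉ D w → (σ.L w v).z0 q * (σ.R w v).z0 q = 0) →
        Even (∑ b ∈ W.wb σ.f, (σ.fc b).z0 q + ∑ w, ∑ v ∈ D w, (σ.L w v).z0 q * (σ.R w v).z0 q)

end Crest.Agent.X212.Sw
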